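import Vale.Agent.P269.R2.H284.Final

noncomputable section

namespace Vale.Agent.Results.P269.NefAndReduction

open Finset Vale.Agent.P269.R2.H284

theorem result (D c : ℕ) (e : Fin c → ℕ) (V : Type) [Fintype V] (pV qV : V → ℕ)
    (ηV : Matrix V V ℂ) (hD : 3 ≤ D) (he : ∀ j, 1 ≤ e j) (hV : IsPrimitive D e V pV qV ηV)
    (g d : ℕ) :
    (((D : ℤ) - 3) * (1 - g) + idx (D + c) e * d ≤ 0 →
      ∀ F : Corr (ci D e V pV qV ηV), IsGW0 _ F → IsGWDiv _ (ciDiv D e V pV qV ηV) F →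
        ∀ K S, z F K g d S = 0) ∧
    (D + c + 1 ≤ ∑ j, e j → 1 ≤ g →
      ∀ F : Corr (ci D e V pV qV ηV), IsGW0 _ F → IsGWDiv _ (ciDiv D e V pV qV ηV) F →
        ∀ K S, z F K g d S = 0) ∧
    ∃ E : Set (ℕ × List (ci D e V pV qV ηV).Ins), E.Finite ∧
      (∀ x ∈ E, 2 ≤ x.1 ∧ Red x.2 ∧
        (((x.2.map fun s => 2 * s.1 + (ci D e V pV qV ηV).p s.2 +
          (ci D e V pV qV ηV).q s.2 - 2).sum : ℕ) : ℤ) + 2 * ((x.1 : ℤ) - 1) =
          2 * (((D : ℤ) - 3) * (1 - g) + idx (D + c) e * d)) ∧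
      ∀ F : Corr (ci D e V pV qV ηV), IsGW0 _ F → IsGWDiv _ (ciDiv D e V pV qV ηV) F →
        (∀ x ∈ E, z F x.1 g d x.2 = 0) → ∀ K S, z F K g d S = 0 := by
  have hv : vd (ci D e V pV qV ηV) g d = ((D : ℤ) - 3) * (1 - g) + idx (D + c) e * d := rfl
  have h1 : vd (ci D e V pV qV ηV) g d ≤ 0 →
      ∀ F : Corr (ci D e V pV qV ηV), IsGW0 _ F → IsGWDiv _ (ciDiv D e V pV qV ηV) F →
        ∀ K S, z F K g d S = 0 := by
    intro h F h0 h1 K S
    rw [main (ci_isTarget he hV) (cond1 hD hV) (ci_isGW h0 h1) g d h K]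
    rfl
  refine ⟨fun h => h1 (by rw [hv]; exact h), ?_, ?_⟩
  · intro h hg
    apply h1
    rw [hv]
    have h2 : idx (D + c) e ≤ 0 := by
      unfold idx
      have : ((D + c + 1 : ℕ) : ℤ) ≤ ((∑ j, e j : ℕ) : ℤ) := by exact_mod_cast h
      push_cast at this ⊢
      linarith
    have h3 : idx (D + c) e * (d : ℤ) ≤ 0 :=
      mul_nonpos_of_nonpos_of_nonneg h2 (by positivity)
    have h4 : ((D : ℤ) - 3) * (1 - g) ≤ 0 := by
      apply mul_nonpos_of_nonneg_of_nonpos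
      · have : (3 : ℤ) ≤ D := by exact_mod_cast hD
        linarith
      · have : (1 : ℤ) ≤ g := by exact_mod_cast hg
        linarith
    linarith
  · refine ⟨{x | 2 ≤ x.1 ∧ Red x.2 ∧
        (((x.2.map fun s => 2 * s.1 + (ci D e V pV qV ηV).p s.2 +
          (ci D e V pV qV ηV).q s.2 - 2).sum : ℕ) : ℤ) + 2 * ((x.1 : ℤ) - 1) =
          2 * (((D : ℤ) - 3) * (1 - g) + idx (D + c) e * d)}, ?_, fun x hx => hx, ?_⟩
    · obtain ⟨n, hn⟩ : ∃ n : ℕ, 2 * (((D : ℤ) - 3) * (1 - g) + idx (D + c) e * d) + 2 ≤ n :=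
        ⟨_, Int.self_le_toNat _⟩
      refine ((Set.finite_Iic n).prod (finite_red (ci D e V pV qV ηV) n)).subset ?_
      rintro ⟨K, S⟩ ⟨hK, hR, hs⟩
      simp only at hK hR hs
      refine ⟨?_, hR, ?_⟩
      · show K ≤ n
        zify
        linarith [Int.natCast_nonneg ((S.map fun s => 2 * s.1 + (ci D e V pV qV ηV).p s.2 +
          (ci D e V pV qV ηV).q s.2 - 2).sum)]
      · zify
        zify at hK
        push_cast at hs ⊢
        linarith
    · intro F h0 h2 h3 K S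
      rw [reduction (ci_isTarget he hV) (ci_isDivisor) (ci_isGW h0 h2) h2 (cond1 hD hV)
        (cond2 hD hV) g d (fun K S hK hR hs => h3 (K, S) ⟨hK, hR, hs⟩) K]
      rfl

end Vale.Agent.Results.P269.NefAndReduction
end
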