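import Vale.Agent.P269.R2.H637.SurfC

noncomputable section

namespace Vale.Agent.Results.P269.Surfaces

open Finset Vale.Agent.P269.R2.H284 Vale.Agent.P269.R2.H637

theorem result (c : ℕ) (e : Fin c → ℕ) (V : Type) [Fintype V] (pV qV : V → ℕ)
    (ηV : Matrix V V ℂ) (he : ∀ j, 1 ≤ e j) (hV : IsPrimitive 2 e V pV qV ηV)
    (M : Type) [AddCommMonoid M] [HasAntidiagonal M] (deg : M → ℕ) (h0 : deg 0 = 0)
    (hadd : ∀ β γ, deg (β + γ) = deg β + deg γ) (hfin : ∀ n, {β | deg β ≤ n}.Finite)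
    (per : V → M → ℂ) (hper : IsPeriods pV per)
    (F : Corr (surf e V pV qV ηV M deg)) (hF : IsSurfGW e V pV qV ηV M deg per F) :
    (∀ (g : ℕ) (β : M), (g : ℤ) - 1 + idx (2 + c) e * deg β ≤ 0 → ∀ K S, z F K g β S = 0) ∧
    (c + 3 ≤ ∑ j, e j → ∀ (g : ℕ) (β : M), g ≤ 1 → ∀ K S, z F K g β S = 0) ∧
    (c + 4 ≤ ∑ j, e j → ∀ (g : ℕ) (β : M), g ≤ deg β + 1 → ∀ K S, z F K g β S = 0) ∧
    (∀ (g : ℕ) (β : M), (redSet e V pV qV ηV M deg g β).Finite ∧
      ((∀ x ∈ redSet e V pV qV ηV M deg g β, z F x.1 g β x.2 = 0) →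
        ∀ K S, z F K g β S = 0)) ∧
    (c + 4 ≤ ∑ j, e j → ∀ g : ℕ,
      {y : M × ℕ × List (surf e V pV qV ηV M deg).Ins |
        y.2 ∈ redSet e V pV qV ηV M deg g y.1}.Finite ∧
      ((∀ y : M × ℕ × List (surf e V pV qV ηV M deg).Ins,
        y.2 ∈ redSet e V pV qV ηV M deg g y.1 → z F y.2.1 g y.1 y.2.2 = 0) →
        ∀ (β : M) K S, z F K g β S = 0)) := by
  have h1 : ∀ (g : ℕ) (β : M), (g : ℤ) - 1 + idx (2 + c) e * deg β ≤ 0 →
      ∀ K S, z F K g β S = 0 := by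
    intro g β h K S
    have hv : vd (surf e V pV qV ηV M deg) g β ≤ 0 := by
      show (((2 : ℕ) : ℤ) - 3) * (1 - g) + idx (2 + c) e * (deg β : ℤ) ≤ 0
      push_cast
      linarith
    rw [main (surf_isTarget he hV h0 hadd) (surf_cond hV) (surf_isGW hF.gw hF.divh) g β hv K]
    rfl
  have hidx : c + 4 ≤ ∑ j, e j → ∀ β : M, idx (2 + c) e * (deg β : ℤ) ≤ (-1) * (deg β : ℤ) := by
    intro h β
    have h2 : idx (2 + c) e ≤ -1 := by
      unfold idx
      have : ((c + 4 : ℕ) : ℤ) ≤ ((∑ j, e j : ℕ) : ℤ) := by exact_mod_cast h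
      push_cast at this ⊢
      linarith
    exact mul_le_mul_of_nonneg_right h2 (by positivity)
  refine ⟨h1, ?_, ?_, ?_, ?_⟩
  · intro h g β hg
    apply h1
    have h2 : idx (2 + c) e ≤ 0 := by
      unfold idx
      have : ((c + 3 : ℕ) : ℤ) ≤ ((∑ j, e j : ℕ) : ℤ) := by exact_mod_cast h
      push_cast at this ⊢
      linarith
    have h3 : idx (2 + c) e * (deg β : ℤ) ≤ 0 :=
      mul_nonpos_of_nonpos_of_nonneg h2 (by positivity)
    have h4 : (g : ℤ) ≤ 1 := by exact_mod_cast hg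
    linarith
  · intro h g β hg
    apply h1
    have h3 := hidx h β
    have h4 : (g : ℤ) ≤ deg β + 1 := by exact_mod_cast hg
    linarith
  · intro g β
    exact ⟨redSet_finite g β, fun h K S => redSet_reduction he hV hper h0 hadd hF g β h K S⟩
  · intro h g
    refine ⟨?_, fun hy β K S => redSet_reduction he hV hper h0 hadd hF g β
      (fun x hx => hy (β, x) hx) K S⟩
    have hU : (⋃ β ∈ {β : M | deg β ≤ g}, (fun x => (β, x)) ''
        redSet e V pV qV ηV M deg g β).Finite :=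
      (hfin g).biUnion fun β _ => (redSet_finite g β).image _
    refine hU.subset ?_
    rintro ⟨β, x⟩ hx
    simp only [Set.mem_iUnion]
    refine ⟨β, ?_, x, hx, rfl⟩
    show deg β ≤ g
    have h3 := hidx h β
    have h4 : 0 < (g : ℤ) - 1 + idx (2 + c) e * deg β := redSet_bound hx
    zify
    linarith

end Vale.Agent.Results.P269.Surfaces
end
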